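import Mathlib
import Crest.Prelude.Def_RotationRep
import Crest.Agent.R113.TransferDefs

-- ▼ part R113/Fib/Fourier
section

/-!
Fourier analysis on the circle used in the fibre decomposition (row 113, S0149, task T15).
-/

set_option autoImplicit false
open MeasureTheory Complex Filter AddCircle
open scoped ENNReal ComplexConjugate InnerProductSpace Topology

namespace Crest.Agent.R113.Fib

/-- Haar probability measure on the circle. -/
noncomputable abbrev mu : Measure UnitAddCircle := haarAddCircle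

/-- L¹ uniqueness for Fourier coefficients on the circle. -/
theorem ae_zero_of_fourierCoeff (g : UnitAddCircle → ℂ) (hg : Integrable g mu)
    (h : ∀ n : ℤ, fourierCoeff g n = 0) : g =ᵐ[mu] 0 := by
  -- the functional
  have hint : ∀ c : C(UnitAddCircle, ℂ), Integrable (fun x => c x * g x) mu := by
    intro c
    refine hg.bdd_mul (c := ‖c‖) (c.continuous.aestronglyMeasurable) ?_
    exact Eventually.of_forall fun x => c.norm_coe_le_norm x
  let L : C(UnitAddCircle, ℂ) →ₗ[ℂ] ℂ :=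
    { toFun := fun c => ∫ x, c x * g x ∂mu
      map_add' := by
        intro c d
        simp only [ContinuousMap.add_apply, add_mul]
        exact integral_add (hint c) (hint d)
      map_smul' := by
        intro r c
        simp only [ContinuousMap.smul_apply, smul_eq_mul, RingHom.id_apply, mul_assoc]
        exact integral_const_mul _ _ }
  let Lc : C(UnitAddCircle, ℂ) →L[ℂ] ℂ := L.mkContinuous (∫ x, ‖g x‖ ∂mu) (by
    intro c
    calc ‖∫ x, c x * g x ∂mu‖ ≤ ∫ x, ‖c x * g x‖ ∂mu := norm_integral_le_integral_norm _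
      _ ≤ ∫ x, ‖g x‖ * ‖c‖ ∂mu := by
          refine integral_mono (hint c).norm (hg.norm.mul_const _) ?_
          intro x
          simp only [norm_mul]
          rw [mul_comm]
          exact mul_le_mul_of_nonneg_left (c.norm_coe_le_norm x) (norm_nonneg _)
      _ = (∫ x, ‖g x‖ ∂mu) * ‖c‖ := integral_mul_const _ _)
  have hLc : ∀ c : C(UnitAddCircle, ℂ), Lc c = ∫ x, c x * g x ∂mu := fun c => rfl
  have hker : ∀ c : C(UnitAddCircle, ℂ), Lc c = 0 := by
    have h1 : Submodule.span ℂ (Set.range (@fourier (1 : ℝ))) ≤ LinearMap.ker (Lc : C(UnitAddCircle, ℂ) →ₗ[ℂ] ℂ) := by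
      rw [Submodule.span_le]
      rintro _ ⟨n, rfl⟩
      have := h (-n)
      simp only [fourierCoeff, neg_neg, smul_eq_mul] at this
      exact this
    have h2 := Submodule.topologicalClosure_minimal _ h1 (ContinuousLinearMap.isClosed_ker Lc)
    rw [span_fourier_closure_eq_top] at h2
    intro c
    exact h2 (Submodule.mem_top (x := c))
  refine ae_eq_zero_of_forall_setIntegral_isClosed_eq_zero hg ?_
  intro s hs
  have δpos : ∀ n : ℕ, 0 < (1 : ℝ) / ((n : ℝ) + 1) := fun n => by positivity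
  have hlim := thickenedIndicator_tendsto_indicator_closure δpos tendsto_one_div_add_atTop_nhds_zero_nat s
  rw [hs.closure_eq] at hlim
  have hpt : ∀ x, Tendsto (fun n : ℕ => (((thickenedIndicator (δpos n) s x : NNReal) : ℝ) : ℂ) * g x) atTop
      (𝓝 (s.indicator g x)) := by
    intro x
    have h1 := (tendsto_pi_nhds.1 hlim) x
    have h2 : Tendsto (fun n : ℕ => (((thickenedIndicator (δpos n) s x : NNReal) : ℝ) : ℂ)) atTop
        (𝓝 ((((s.indicator (fun _ => (1 : NNReal)) x : NNReal) : ℝ) : ℂ))) :=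
      (Complex.continuous_ofReal.tendsto _).comp ((NNReal.continuous_coe.tendsto _).comp h1)
    have h3 := h2.mul_const (g x)
    convert h3 using 2
    by_cases hx : x ∈ s <;> simp [hx]
  have hdc : Tendsto (fun n : ℕ => ∫ x, (((thickenedIndicator (δpos n) s x : NNReal) : ℝ) : ℂ) * g x ∂mu) atTop
      (𝓝 (∫ x, s.indicator g x ∂mu)) := by
    refine tendsto_integral_of_dominated_convergence (fun x => ‖g x‖) ?_ hg.norm ?_ ?_
    · intro n
      refine AEStronglyMeasurable.mul ?_ hg.1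
      exact (Complex.continuous_ofReal.comp (NNReal.continuous_coe.comp
        (thickenedIndicator (δpos n) s).continuous)).aestronglyMeasurable
    · intro n
      refine Eventually.of_forall fun x => ?_
      rw [norm_mul]
      have : ‖(((thickenedIndicator (δpos n) s x : NNReal) : ℝ) : ℂ)‖ ≤ 1 := by
        rw [Complex.norm_real, Real.norm_of_nonneg (NNReal.coe_nonneg _)]
        exact_mod_cast thickenedIndicator_le_one (δpos n) s x
      calc _ ≤ 1 * ‖g x‖ := mul_le_mul_of_nonneg_right this (norm_nonneg _)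
        _ = ‖g x‖ := one_mul _
    · exact Eventually.of_forall hpt
  have hzero : ∀ n : ℕ, ∫ x, (((thickenedIndicator (δpos n) s x : NNReal) : ℝ) : ℂ) * g x ∂mu = 0 := by
    intro n
    have := hker ⟨fun x => (((thickenedIndicator (δpos n) s x : NNReal) : ℝ) : ℂ),
      Complex.continuous_ofReal.comp (NNReal.continuous_coe.comp
        (thickenedIndicator (δpos n) s).continuous)⟩
    rw [hLc] at this
    exact this
  simp only [hzero] at hdc
  have := tendsto_nhds_unique hdc tendsto_const_nhds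
  rw [integral_indicator hs.measurableSet] at this
  exact this

theorem ae_eq_of_fourierCoeff (g h : UnitAddCircle → ℂ) (hg : Integrable g mu) (hh : Integrable h mu)
    (H : ∀ n : ℤ, fourierCoeff g n = fourierCoeff h n) : g =ᵐ[mu] h := by
  have h1 := ae_zero_of_fourierCoeff (g - h) (hg.sub hh) (by
    intro n
    have hi1 := hg.fourier_smul (n := -n)
    have hi2 := hh.fourier_smul (n := -n)
    have : fourierCoeff (g - h) n = fourierCoeff g n - fourierCoeff h n := by
      simp only [fourierCoeff, Pi.sub_apply, smul_sub]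
      exact integral_sub hi1 hi2
    rw [this, H, sub_self])
  filter_upwards [h1] with x hx
  simpa [sub_eq_zero] using hx

end Crest.Agent.R113.Fib
end

-- ▼ part R113/Fib/Fibre
section

/-!
The fibre decomposition of `ℓ²(ℤ × ℤ)` over the circle (row 113, S0149, task T15).
-/

set_option autoImplicit false
open MeasureTheory Complex Filter AddCircle
open scoped ENNReal ComplexConjugate InnerProductSpace Topology

namespace Crest.Agent.R113.Fib

noncomputable abbrev L2Z := lp (fun _ : ℤ => ℂ) 2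
noncomputable abbrev L2ZZ := lp (fun _ : ℤ × ℤ => ℂ) 2

theorem summable_sq {ι : Type*} (v : lp (fun _ : ι => ℂ) 2) : Summable fun i => ‖v i‖ ^ 2 := by
  have := (lp.memℓp v).summable (by norm_num : 0 < (2 : ℝ≥0∞).toReal)
  simpa using this

theorem memlp_of_summable_sq {ι : Type*} (v : ι → ℂ) (h : Summable fun i => ‖v i‖ ^ 2) :
    Memℓp (E := fun _ : ι => ℂ) v 2 := by
  refine memℓp_gen ?_
  simpa using h

theorem norm_sq_eq_tsum {ι : Type*} (v : lp (fun _ : ι => ℂ) 2) : ‖v‖ ^ 2 = ∑' i, ‖v i‖ ^ 2 := by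
  have := lp.norm_rpow_eq_tsum (by norm_num : 0 < (2 : ℝ≥0∞).toReal) v
  simpa using this

/-- The `m`-th row of an element of `ℓ²(ℤ × ℤ)`. -/
noncomputable def row (η : L2ZZ) (m : ℤ) : L2Z :=
  ⟨fun n => η (m, n), memlp_of_summable_sq _
    ((summable_sq η).comp_injective (fun a b h => by simpa using h : Function.Injective (fun n : ℤ => (m, n))))⟩

@[simp] theorem row_apply (η : L2ZZ) (m n : ℤ) : row η m n = η (m, n) := rfl

theorem summable_row_sq (η : L2ZZ) : Summable fun m => ‖row η m‖ ^ 2 := by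
  have h := (summable_sq η)
  have h2 := h.prod
  refine h2.congr ?_
  intro m
  rw [norm_sq_eq_tsum]
  rfl


theorem tsum_row_inner (η ζ : L2ZZ) : ∑' m, ⟪row η m, row ζ m⟫_ℂ = ⟪η, ζ⟫_ℂ := by
  have h : Summable (fun i : ℤ × ℤ => ⟪η i, ζ i⟫_ℂ) := lp.summable_inner η ζ
  rw [lp.inner_eq_tsum η ζ, h.tsum_prod]
  refine tsum_congr fun m => ?_
  rw [lp.inner_eq_tsum]
  simp only [row_apply]

/-- The `m`-th coordinate function of `η` on the circle, as an element of `L²`. -/
noncomputable def Phi (η : L2ZZ) (m : ℤ) : Lp ℂ 2 mu := fourierBasis.repr.symm (row η m)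

theorem fourierCoeff_Phi (η : L2ZZ) (m n : ℤ) : fourierCoeff (Phi η m) n = η (m, n) := by
  rw [← fourierBasis_repr, Phi, LinearIsometryEquiv.apply_symm_apply, row_apply]




theorem memLp_Phi (η : L2ZZ) (m : ℤ) : MemLp (Phi η m : UnitAddCircle → ℂ) 2 mu := Lp.memLp _

theorem integrable_Phi (η : L2ZZ) (m : ℤ) : Integrable (Phi η m : UnitAddCircle → ℂ) mu :=
  (memLp_Phi η m).integrable (by norm_num)

/-- uniqueness: an integrable function with Fourier coefficients `η(m, ·)` is `Phi η m`. -/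
theorem ae_eq_Phi (η : L2ZZ) (m : ℤ) (g : UnitAddCircle → ℂ) (hg : Integrable g mu)
    (H : ∀ n : ℤ, fourierCoeff g n = η (m, n)) : g =ᵐ[mu] Phi η m :=
  ae_eq_of_fourierCoeff _ _ hg (integrable_Phi η m) (fun n => by rw [H, fourierCoeff_Phi])

theorem fourierCoeff_fourier_mul (g : UnitAddCircle → ℂ) (b n : ℤ) :
    fourierCoeff (fun x => fourier b x * g x) n = fourierCoeff g (n - b) := by
  simp only [fourierCoeff, smul_eq_mul]
  refine integral_congr_ae (Eventually.of_forall fun x => ?_)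
  simp only
  rw [← mul_assoc, ← fourier_add]
  congr 3
  ring

theorem integrable_fourier_mul (g : UnitAddCircle → ℂ) (hg : Integrable g mu) (b : ℤ) :
    Integrable (fun x => fourier b x * g x) mu := by
  simpa [smul_eq_mul] using hg.fourier_smul (n := b)

/-- Shift of the second coordinate is multiplication by a character. -/
theorem Phi_shift (η η' : L2ZZ) (b : ℤ) (h : ∀ m n, η' (m, n) = η (m, n - b)) (m : ℤ) :
    (fun x => fourier b x * Phi η m x) =ᵐ[mu] Phi η' m := by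
  refine ae_eq_Phi η' m _ (integrable_fourier_mul _ (integrable_Phi η m) b) ?_
  intro n
  rw [fourierCoeff_fourier_mul, fourierCoeff_Phi, h]

theorem integrable_conj_mul_Phi (η ζ : L2ZZ) (m : ℤ) :
    Integrable (fun x => conj (Phi η m x) * Phi ζ m x) mu := by
  have := L2.integrable_inner (𝕜 := ℂ) (Phi η m) (Phi ζ m)
  refine this.congr (Eventually.of_forall fun x => ?_)
  simp only [RCLike.inner_apply]
  ring

theorem integral_conj_mul_Phi (η ζ : L2ZZ) (m : ℤ) :
    ∫ x, conj (Phi η m x) * Phi ζ m x ∂mu = ⟪row η m, row ζ m⟫_ℂ := by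
  have : ⟪Phi η m, Phi ζ m⟫_ℂ = ⟪row η m, row ζ m⟫_ℂ := by
    rw [Phi, Phi, LinearIsometryEquiv.inner_map_map]
  rw [← this, L2.inner_def]
  refine integral_congr_ae (Eventually.of_forall fun x => ?_)
  simp only [RCLike.inner_apply]
  ring

theorem integral_norm_sq_Phi (η : L2ZZ) (m : ℤ) :
    ∫ x, ‖Phi η m x‖ ^ 2 ∂mu = ‖row η m‖ ^ 2 := by
  have h := integral_conj_mul_Phi η η m
  have h2 : ∀ x, conj (Phi η m x) * Phi η m x = ((‖Phi η m x‖ ^ 2 : ℝ) : ℂ) := by
    intro x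
    rw [Complex.conj_mul']
    push_cast
    rfl
  simp only [h2] at h
  rw [inner_self_eq_norm_sq_to_K] at h
  have h3 : ∫ x, ((‖Phi η m x‖ ^ 2 : ℝ) : ℂ) ∂mu = ((∫ x, ‖Phi η m x‖ ^ 2 ∂mu : ℝ) : ℂ) :=
    integral_ofReal
  rw [h3] at h
  apply Complex.ofReal_injective
  rw [h]
  push_cast
  rfl

theorem integrable_norm_sq_Phi (η : L2ZZ) (m : ℤ) :
    Integrable (fun x => ‖Phi η m x‖ ^ 2) mu := by
  have h := (integrable_conj_mul_Phi η η m).norm
  refine h.congr (Eventually.of_forall fun x => ?_)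
  simp only [norm_mul, RCLike.norm_conj]
  ring

theorem integrable_tsum_of {E : Type*} [NormedAddCommGroup E] [NormedSpace ℝ E] [CompleteSpace E]
    [MeasurableSpace E] [BorelSpace E] [SecondCountableTopology E]
    {f : ℤ → UnitAddCircle → E} (hf : ∀ m, Integrable (f m) mu)
    (hs : Summable fun m => ∫ x, ‖f m x‖ ∂mu) :
    (∀ᵐ x ∂mu, Summable fun m => ‖f m x‖) ∧ Integrable (fun x => ∑' m, f m x) mu ∧
    ∫ x, ∑' m, f m x ∂mu = ∑' m, ∫ x, f m x ∂mu := by
  have h3 : ∑' m, ∫⁻ x, ‖f m x‖ₑ ∂mu ≠ ⊤ := by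
    have h4 : ∀ m, ∫⁻ x, ‖f m x‖ₑ ∂mu = ENNReal.ofReal (∫ x, ‖f m x‖ ∂mu) := by
      intro m
      rw [ofReal_integral_norm_eq_lintegral_enorm (hf m)]
    simp_rw [h4]
    exact hs.tsum_ofReal_ne_top
  have h3' := h3
  rw [← lintegral_tsum (fun m => (hf m).1.enorm)] at h3
  have h5 := ae_lt_top' (AEMeasurable.tsum (fun m => (hf m).1.enorm)) h3
  have h6 : ∀ᵐ x ∂mu, Summable fun m => ‖f m x‖ := by
    filter_upwards [h5] with x hx
    exact tsum_enorm_ne_top_iff_summable_norm.1 hx.ne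
  refine ⟨h6, ⟨?_, ?_⟩, integral_tsum (fun m => (hf m).1) h3'⟩
  · exact (AEMeasurable.tsum (fun m => (hf m).1.aemeasurable)).aestronglyMeasurable
  · refine lt_of_le_of_lt ?_ (lt_top_iff_ne_top.2 h3)
    exact lintegral_mono fun x => enorm_tsum_le_tsum_enorm

/-- square summability of the fibre -/
theorem ae_summable (η : L2ZZ) : ∀ᵐ x ∂mu, Summable fun m => ‖Phi η m x‖ ^ 2 := by
  have h := (integrable_tsum_of (fun m => integrable_norm_sq_Phi η m) (by
    refine (summable_row_sq η).congr ?_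
    intro m
    rw [← integral_norm_sq_Phi]
    refine integral_congr_ae (Eventually.of_forall fun x => ?_)
    simp)).1
  filter_upwards [h] with x hx
  simpa using hx

/-- fibrewise inner product -/
noncomputable def ip (η ζ : L2ZZ) (x : UnitAddCircle) : ℂ := ∑' m, conj (Phi η m x) * Phi ζ m x

theorem ip_aux (η ζ : L2ZZ) : Summable fun m => ∫ x, ‖conj (Phi η m x) * Phi ζ m x‖ ∂mu := by
  refine Summable.of_nonneg_of_le (fun m => integral_nonneg fun x => norm_nonneg _) ?_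
    ((summable_row_sq η).add (summable_row_sq ζ))
  intro m
  rw [← integral_norm_sq_Phi, ← integral_norm_sq_Phi,
    ← integral_add (integrable_norm_sq_Phi η m) (integrable_norm_sq_Phi ζ m)]
  refine integral_mono (integrable_conj_mul_Phi η ζ m).norm
    ((integrable_norm_sq_Phi η m).add (integrable_norm_sq_Phi ζ m)) ?_
  intro x
  simp only [norm_mul, RCLike.norm_conj]
  nlinarith [sq_nonneg (‖Phi η m x‖ - ‖Phi ζ m x‖), sq_nonneg (‖Phi η m x‖ + ‖Phi ζ m x‖)]

theorem integrable_ip (η ζ : L2ZZ) : Integrable (ip η ζ) mu :=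
  (integrable_tsum_of (fun m => integrable_conj_mul_Phi η ζ m) (ip_aux η ζ)).2.1


theorem integral_ip (η ζ : L2ZZ) : ∫ x, ip η ζ x ∂mu = ⟪η, ζ⟫_ℂ := by
  have h := (integrable_tsum_of (fun m => integrable_conj_mul_Phi η ζ m) (ip_aux η ζ)).2.2
  simp only [ip]
  rw [h, ← tsum_row_inner]
  exact tsum_congr fun m => integral_conj_mul_Phi η ζ m

theorem fourierCoeff_ip (η η' ζ : L2ZZ) (b : ℤ) (h : ∀ m n, η' (m, n) = η (m, n - b)) :
    fourierCoeff (ip η ζ) b = ⟪η', ζ⟫_ℂ := by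
  rw [← integral_ip, fourierCoeff]
  refine integral_congr_ae ?_
  have h1 : ∀ᵐ x ∂mu, ∀ m, fourier b x * Phi η m x = Phi η' m x :=
    ae_all_iff.2 fun m => Phi_shift η η' b h m
  filter_upwards [h1] with x hx
  simp only [ip, smul_eq_mul]
  rw [← tsum_mul_left]
  refine tsum_congr fun m => ?_
  rw [← hx m, fourier_neg, map_mul]
  ring

/-- Equality of fibre inner products from equality of all shifted inner products. -/
theorem ip_congr (η ζ η₁ ζ₁ : L2ZZ)
    (H : ∀ (b : ℤ) (η' η₁' : L2ZZ), (∀ m n, η' (m, n) = η (m, n - b)) →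
      (∀ m n, η₁' (m, n) = η₁ (m, n - b)) → ⟪η', ζ⟫_ℂ = ⟪η₁', ζ₁⟫_ℂ)
    (S : ∀ (b : ℤ) (v : L2ZZ), ∃ v' : L2ZZ, ∀ m n, v' (m, n) = v (m, n - b)) :
    ip η ζ =ᵐ[mu] ip η₁ ζ₁ := by
  refine ae_eq_of_fourierCoeff _ _ (integrable_ip _ _) (integrable_ip _ _) ?_
  intro b
  obtain ⟨η', hη'⟩ := S b η
  obtain ⟨η₁', hη₁'⟩ := S b η₁
  rw [fourierCoeff_ip η η' ζ b hη', fourierCoeff_ip η₁ η₁' ζ₁ b hη₁']
  exact H b η' η₁' hη' hη₁'

end Crest.Agent.R113.Fib
end

-- ▼ part R113/Fib/Ops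
section

/-!
Weighted permutation operators on `ℓ²(ℤ × ℤ)`, the commutant of the rotation pair
(row 113, S0149, task T15).
-/

set_option autoImplicit false
open MeasureTheory Complex Filter AddCircle
open scoped ENNReal ComplexConjugate InnerProductSpace Topology
open Crest.AnalysisR.RotationRep

namespace Crest.Agent.R113.Fib

/-- Basis vectors. -/
noncomputable abbrev dz {ι : Type*} [DecidableEq ι] (i : ι) : lp (fun _ : ι => ℂ) 2 := lp.single 2 i (1 : ℂ)

theorem ext_basis {ι : Type*} [DecidableEq ι] {H : Type*} [NormedAddCommGroup H] [NormedSpace ℂ H]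
    (A B : lp (fun _ : ι => ℂ) 2 →L[ℂ] H) (h : ∀ i, A (dz i) = B (dz i)) : A = B := by
  refine lp.ext_continuousLinearMap (by norm_num) ?_
  intro i
  ext
  simpa using h i

/-- weighted permutation operator -/
noncomputable def Wop {ι : Type*} (σ : ι ≃ ι) (c : ι → ℂ) (hc : ∀ i, ‖c i‖ = 1) :
    lp (fun _ : ι => ℂ) 2 →L[ℂ] lp (fun _ : ι => ℂ) 2 :=
  LinearMap.mkContinuous
    { toFun := fun v => ⟨fun i => c i * v (σ i), memlp_of_summable_sq _ (by
        have := (summable_sq v).comp_injective σ.injective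
        refine this.congr ?_
        intro i
        simp [hc])⟩
      map_add' := by
        intro v w
        ext i
        simp only [lp.coeFn_add, Pi.add_apply, mul_add]
      map_smul' := by
        intro r v
        ext i
        simp [mul_left_comm] } 1 (by
    intro v
    rw [one_mul]
    refine le_of_sq_le_sq ?_ (norm_nonneg _)
    rw [norm_sq_eq_tsum, norm_sq_eq_tsum, ← Equiv.tsum_eq σ (fun i => ‖v i‖ ^ 2)]
    refine le_of_eq (tsum_congr fun i => ?_)
    simp [hc])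

@[simp] theorem Wop_apply {ι : Type*} (σ : ι ≃ ι) (c : ι → ℂ) (hc : ∀ i, ‖c i‖ = 1)
    (v : lp (fun _ : ι => ℂ) 2) (i : ι) : Wop σ c hc v i = c i * v (σ i) := rfl

theorem Wop_single {ι : Type*} [DecidableEq ι] (σ : ι ≃ ι) (c : ι → ℂ) (hc : ∀ i, ‖c i‖ = 1) (j : ι) :
    Wop σ c hc (dz j) = c (σ.symm j) • dz (σ.symm j) := by
  ext i
  rw [Wop_apply]
  by_cases h : i = σ.symm j
  · subst h
    simp
  · have h2 : σ i ≠ j := fun e => h (by rw [← e, Equiv.symm_apply_apply])
    simp [lp.single_apply, h, h2]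

theorem star_Wop {ι : Type*} (σ : ι ≃ ι) (c : ι → ℂ) (hc : ∀ i, ‖c i‖ = 1) :
    star (Wop σ c hc) = Wop σ.symm (fun j => conj (c (σ.symm j))) (by intro i; simp [hc]) := by
  symm
  rw [ContinuousLinearMap.star_eq_adjoint, ContinuousLinearMap.eq_adjoint_iff]
  intro x y
  rw [lp.inner_eq_tsum, lp.inner_eq_tsum, ← Equiv.tsum_eq σ]
  refine tsum_congr fun i => ?_
  simp only [Wop_apply, Equiv.symm_apply_apply, RCLike.inner_apply, map_mul, RingHomCompTriple.comp_apply,
    RingHom.id_apply]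
  ring

/-- `e(t) = exp(2πit)` -/
noncomputable def ee (t : ℝ) : ℂ := fourier 1 (t : UnitAddCircle)

theorem norm_ee (t : ℝ) : ‖ee t‖ = 1 := by
  rw [ee, fourier_one]; exact Circle.norm_coe _

theorem ee_add (s t : ℝ) : ee (s + t) = ee s * ee t := by
  simp only [ee, fourier_one]
  rw [AddCircle.coe_add, AddCircle.toCircle_add]
  rfl

theorem ee_eq (t : ℝ) : ee t = Complex.exp (2 * Real.pi * Complex.I * t) := by
  rw [ee, fourier_coe_apply]
  congr 1
  push_cast
  ring

theorem ee_zero : ee 0 = 1 := by rw [ee_eq]; simp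

theorem conj_ee (t : ℝ) : conj (ee t) = ee (-t) := by
  rw [ee, ee, ← fourier_neg, fourier_coe_apply, fourier_coe_apply]
  congr 1
  push_cast
  ring

theorem fourier_real (k : ℤ) (t : ℝ) : (fourier k (t : UnitAddCircle) : ℂ) = ee (k * t) := by
  rw [ee_eq, fourier_coe_apply]
  congr 1
  push_cast
  ring

/-- shift `(m,n) ↦ (m, n - b)` -/
def sg2 (b : ℤ) : ℤ × ℤ ≃ ℤ × ℤ where
  toFun i := (i.1, i.2 - b)
  invFun i := (i.1, i.2 + b)
  left_inv i := by simp
  right_inv i := by simp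

/-- shift `(m,n) ↦ (m - a, n)` -/
def sg1 (a : ℤ) : ℤ × ℤ ≃ ℤ × ℤ where
  toFun i := (i.1 - a, i.2)
  invFun i := (i.1 + a, i.2)
  left_inv i := by simp
  right_inv i := by simp

@[simp] theorem sg1_apply (a m n : ℤ) : sg1 a (m, n) = (m - a, n) := rfl
@[simp] theorem sg2_apply (b m n : ℤ) : sg2 b (m, n) = (m, n - b) := rfl
@[simp] theorem sg1_symm_apply (a m n : ℤ) : (sg1 a).symm (m, n) = (m + a, n) := rfl
@[simp] theorem sg2_symm_apply (b m n : ℤ) : (sg2 b).symm (m, n) = (m, n + b) := rfl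

/-- `(Sh b v)(m,n) = v(m,n-b)` (commutes with the rotation pair) -/
noncomputable def Sh (b : ℤ) : L2ZZ →L[ℂ] L2ZZ := Wop (sg2 b) (fun _ => 1) (by simp)

/-- `(Tw v)(m,n) = e(nθ) v(m-1,n)` (commutes with the rotation pair) -/
noncomputable def Tw (θ : ℝ) : L2ZZ →L[ℂ] L2ZZ :=
  Wop (sg1 1) (fun i => ee (i.2 * θ)) (fun _ => norm_ee _)

@[simp] theorem Sh_apply (b m n : ℤ) (v : L2ZZ) : Sh b v (m, n) = v (m, n - b) := by
  rw [Sh, Wop_apply, sg2_apply, one_mul]

@[simp] theorem Tw_apply (θ : ℝ) (m n : ℤ) (v : L2ZZ) : Tw θ v (m, n) = ee (n * θ) * v (m - 1, n) := by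
  rw [Tw, Wop_apply, sg1_apply]



section pair
variable {θ : ℝ} {U V : L2ZZ →L[ℂ] L2ZZ} (hUV : IsRotationPair θ U V)
include hUV

theorem U_eq : U = Wop (sg1 1) (fun _ => 1) (by simp) := by
  refine ext_basis _ _ ?_
  rintro ⟨a, b⟩
  rw [Wop_single, sg1_symm_apply, one_smul]
  exact hUV.1 a b

theorem V_eq : V = Wop (sg2 1) (fun i => ee (θ * i.1)) (fun _ => norm_ee _) := by
  refine ext_basis _ _ ?_
  rintro ⟨a, b⟩
  rw [Wop_single, sg2_symm_apply]
  have := hUV.2 a b
  rw [ee_eq]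
  simp only [dz] at *
  rw [this]
  congr 2
  push_cast
  ring

theorem U_apply (v : L2ZZ) (m n : ℤ) : U v (m, n) = v (m - 1, n) := by
  rw [U_eq hUV, Wop_apply, sg1_apply, one_mul]

theorem V_apply (v : L2ZZ) (m n : ℤ) : V v (m, n) = ee (θ * m) * v (m, n - 1) := by
  rw [V_eq hUV, Wop_apply, sg2_apply]

theorem star_V_apply (v : L2ZZ) (m n : ℤ) : star V v (m, n) = ee (-(θ * m)) * v (m, n + 1) := by
  rw [V_eq hUV, star_Wop, Wop_apply, sg2_symm_apply, conj_ee]

theorem star_U_apply (v : L2ZZ) (m n : ℤ) : star U v (m, n) = v (m + 1, n) := by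
  rw [U_eq hUV, star_Wop, Wop_apply, sg1_symm_apply]
  simp

theorem Sh_mem (b : ℤ) : Sh b ∈ Set.centralizer (({U, V} : Set (L2ZZ →L[ℂ] L2ZZ)) ∪ star '' {U, V}) := by
  rw [Set.mem_centralizer_iff]
  rintro m (hm | ⟨m', hm', rfl⟩)
  · rcases hm with rfl | hm
    · ext v ⟨i, j⟩
      simp only [mul_apply_eq_comp, U_apply hUV, Sh_apply]
    · rw [Set.mem_singleton_iff] at hm
      subst hm
      ext v ⟨i, j⟩
      simp only [mul_apply_eq_comp, V_apply hUV, Sh_apply]
      congr 3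
      ring_nf
  · rcases hm' with rfl | hm
    · ext v ⟨i, j⟩
      simp only [mul_apply_eq_comp, star_U_apply hUV, Sh_apply]
    · rw [Set.mem_singleton_iff] at hm
      subst hm
      ext v ⟨i, j⟩
      simp only [mul_apply_eq_comp, star_V_apply hUV, Sh_apply]
      congr 3
      ring_nf

theorem Tw_mem : Tw θ ∈ Set.centralizer (({U, V} : Set (L2ZZ →L[ℂ] L2ZZ)) ∪ star '' {U, V}) := by
  rw [Set.mem_centralizer_iff]
  rintro m (hm | ⟨m', hm', rfl⟩)
  · rcases hm with rfl | hm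
    · ext v ⟨i, j⟩
      simp only [mul_apply_eq_comp, U_apply hUV, Tw_apply]
    · rw [Set.mem_singleton_iff] at hm
      subst hm
      ext v ⟨i, j⟩
      simp only [mul_apply_eq_comp, V_apply hUV, Tw_apply]
      rw [← mul_assoc, ← mul_assoc, ← ee_add, ← ee_add]
      congr 2
      push_cast
      ring
  · rcases hm' with rfl | hm
    · ext v ⟨i, j⟩
      simp only [mul_apply_eq_comp, star_U_apply hUV, Tw_apply]
      congr 3
      ring_nf
    · rw [Set.mem_singleton_iff] at hm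
      subst hm
      ext v ⟨i, j⟩
      simp only [mul_apply_eq_comp, star_V_apply hUV, Tw_apply]
      rw [← mul_assoc, ← mul_assoc, ← ee_add, ← ee_add]
      congr 2
      push_cast
      ring

variable {p : L2ZZ →L[ℂ] L2ZZ} (hp : p ∈ vonNeumannGenerated {U, V})
include hp

theorem p_Sh (b : ℤ) (v : L2ZZ) : p (Sh b v) = Sh b (p v) := by
  have h := Set.mem_centralizer_iff.1 hp (Sh b) (Sh_mem hUV b)
  have := congrArg (fun A => A v) h
  simpa using this.symm

theorem p_Tw (v : L2ZZ) : p (Tw θ v) = Tw θ (p v) := by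
  have h := Set.mem_centralizer_iff.1 hp (Tw θ) (Tw_mem hUV)
  have := congrArg (fun A => A v) h
  simpa using this.symm

end pair

end Crest.Agent.R113.Fib
end

-- ▼ part R113/FibCfc
section

/-!
# Row 113, S0149, task T15 (fibre extraction): functional calculus of `V` in the Fourier picture

`H2 = ℓ²(ℤ × ℤ)`, `H1 = ℓ²(ℤ)`; `F η k ∈ L²(circle)` has Fourier coefficients `b ↦ η (k, b)`;
`F (cfc f V η) k = f(e(x + k θ)) F η k`.
-/

set_option autoImplicit false

namespace Crest.Agent.R113.FibCfc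

open MeasureTheory AddCircle Complex Crest.AnalysisR.RotationRep
open scoped ENNReal InnerProductSpace ComplexConjugate Topology

noncomputable section

/-- `ℓ²(ℤ × ℤ)` -/
abbrev H2 := lp (fun _ : ℤ × ℤ => ℂ) 2
/-- `ℓ²(ℤ)` -/
abbrev H1 := lp (fun _ : ℤ => ℂ) 2
/-- Haar probability measure -/
abbrev μT : Measure UnitAddCircle := haarAddCircle (T := (1 : ℝ))
/-- `L²` of the circle of length `1` -/
abbrev L2T := Lp ℂ 2 μT

/-- basis vectors -/
abbrev dl (i : ℤ × ℤ) : H2 := lp.single 2 i (1 : ℂ)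

/-! ### rows and the Fourier transform -/

theorem summable_sq (η : H2) : Summable fun i => ‖η i‖ ^ 2 := by
  have := (lp.memℓp η).summable (by norm_num)
  simpa using this

theorem memlp_two {ι : Type*} {f : ι → ℂ} (hf : Summable fun i => ‖f i‖ ^ 2) :
    Memℓp f 2 := by
  refine memℓp_gen ?_
  simpa using hf

theorem norm_sq_eq (η : H2) : ‖η‖ ^ 2 = ∑' i, ‖η i‖ ^ 2 := by
  have := lp.norm_rpow_eq_tsum (p := 2) (by norm_num) η
  simpa using this

theorem norm_sq_eq1 (η : H1) : ‖η‖ ^ 2 = ∑' i, ‖η i‖ ^ 2 := by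
  have := lp.norm_rpow_eq_tsum (p := 2) (by norm_num) η
  simpa using this

/-- the `k`-th row -/
def row (η : H2) (k : ℤ) : H1 :=
  ⟨fun b => η (k, b), memlp_two ((summable_sq η).comp_injective (fun a b h => by simpa using h))⟩

@[simp] theorem row_apply (η : H2) (k b : ℤ) : row η k b = η (k, b) := rfl

theorem row_add (η ζ : H2) (k : ℤ) : row (η + ζ) k = row η k + row ζ k := by
  ext b; simp

theorem row_sub (η ζ : H2) (k : ℤ) : row (η - ζ) k = row η k - row ζ k := by
  ext b; simp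

theorem row_smul (c : ℂ) (η : H2) (k : ℤ) : row (c • η) k = c • row η k := by
  ext b; simp

/-- the Fourier transform of the `k`-th row -/
def F (η : H2) (k : ℤ) : L2T := (fourierBasis (T := (1 : ℝ))).repr.symm (row η k)

theorem F_add (η ζ : H2) (k : ℤ) : F (η + ζ) k = F η k + F ζ k := by
  unfold F; rw [row_add, map_add]

theorem F_sub (η ζ : H2) (k : ℤ) : F (η - ζ) k = F η k - F ζ k := by
  unfold F; rw [row_sub, map_sub]

theorem F_smul (c : ℂ) (η : H2) (k : ℤ) : F (c • η) k = c • F η k := by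
  unfold F; rw [row_smul, map_smul]

theorem norm_F (η : H2) (k : ℤ) : ‖F η k‖ = ‖row η k‖ := LinearIsometryEquiv.norm_map _ _

theorem hasSum_norm_row (η : H2) : HasSum (fun k => ‖row η k‖ ^ 2) (‖η‖ ^ 2) := by
  have h1 := (summable_sq η).hasSum
  rw [← norm_sq_eq] at h1
  refine h1.prod_fiberwise (fun k => ?_)
  have h2 : Summable fun b => ‖row η k b‖ ^ 2 :=
    (summable_sq η).comp_injective (fun a b h => by simpa using h)
  have h3 := h2.hasSum
  rw [← norm_sq_eq1] at h3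
  exact h3

theorem norm_F_le (η : H2) (k : ℤ) : ‖F η k‖ ≤ ‖η‖ := by
  rw [norm_F]
  have h1 : ‖row η k‖ ^ 2 ≤ ‖η‖ ^ 2 :=
    le_hasSum (hasSum_norm_row η) k (fun j _ => sq_nonneg _)
  exact (pow_le_pow_iff_left₀ (norm_nonneg _) (norm_nonneg _) (by norm_num)).mp h1

theorem fourierCoeff_F (η : H2) (k b : ℤ) : fourierCoeff (F η k) b = η (k, b) := by
  rw [← fourierBasis_repr]
  unfold F
  rw [LinearIsometryEquiv.apply_symm_apply]
  rfl

/-- two square integrable functions with the same Fourier coefficients agree -/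
theorem eq_of_fourierCoeff {g h : L2T} (H : ∀ n, fourierCoeff g n = fourierCoeff h n) : g = h := by
  apply (fourierBasis (T := (1 : ℝ))).repr.injective
  ext n
  rw [fourierBasis_repr, fourierBasis_repr, H]

/-! ### multiplication by continuous functions -/

/-- multiplication operator -/
def mulC (φ : C(UnitAddCircle, ℂ)) (h : L2T) : L2T :=
  ((ContinuousMap.toLp ∞ μT ℂ φ : Lp ℂ ∞ μT) • h : Lp ℂ 2 μT)

theorem coe_mulC (φ : C(UnitAddCircle, ℂ)) (h : L2T) :
    mulC φ h =ᵐ[μT] fun x => φ x * h x := by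
  unfold mulC
  refine (Lp.coeFn_lpSMul _ _).trans ?_
  filter_upwards [ContinuousMap.coeFn_toLp (p := ∞) (𝕜 := ℂ) μT φ] with x hx
  simp only [Pi.smul_apply', smul_eq_mul]
  rw [hx]

theorem norm_mulC_le (φ : C(UnitAddCircle, ℂ)) (h : L2T) : ‖mulC φ h‖ ≤ ‖φ‖ * ‖h‖ := by
  unfold mulC
  refine (Lp.norm_smul_le _ _).trans (mul_le_mul_of_nonneg_right ?_ (norm_nonneg _))
  have h1 := (ContinuousMap.toLp ∞ μT ℂ : C(UnitAddCircle, ℂ) →L[ℂ] Lp ℂ ∞ μT).le_opNorm φ
  have h2 := ContinuousMap.toLp_norm_le (p := ∞) (μ := μT) (𝕜 := ℂ) (E := ℂ) (α := UnitAddCircle)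
  simp only [ENNReal.toReal_top, inv_zero, Real.rpow_zero] at h2
  nlinarith [norm_nonneg φ]

theorem mulC_sub (φ ψ : C(UnitAddCircle, ℂ)) (h : L2T) :
    mulC φ h - mulC ψ h = mulC (φ - ψ) h := by
  refine Lp.ext ?_
  filter_upwards [Lp.coeFn_sub (mulC φ h) (mulC ψ h), coe_mulC φ h, coe_mulC ψ h,
    coe_mulC (φ - ψ) h] with x h1 h2 h3 h4
  rw [h1, Pi.sub_apply, h2, h3, h4]
  simp; ring

theorem mulC_add (φ ψ : C(UnitAddCircle, ℂ)) (h : L2T) :
    mulC (φ + ψ) h = mulC φ h + mulC ψ h := by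
  refine Lp.ext ?_
  filter_upwards [Lp.coeFn_add (mulC φ h) (mulC ψ h), coe_mulC φ h, coe_mulC ψ h,
    coe_mulC (φ + ψ) h] with x h1 h2 h3 h4
  rw [h1, Pi.add_apply, h2, h3, h4]
  simp; ring

theorem mulC_mul (φ ψ : C(UnitAddCircle, ℂ)) (h : L2T) :
    mulC (φ * ψ) h = mulC φ (mulC ψ h) := by
  refine Lp.ext ?_
  filter_upwards [coe_mulC φ (mulC ψ h), coe_mulC ψ h, coe_mulC (φ * ψ) h] with x h1 h2 h3
  rw [h1, h2, h3]
  simp; ring

theorem mulC_const (c : ℂ) (h : L2T) : mulC (ContinuousMap.const _ c) h = c • h := by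
  refine Lp.ext ?_
  filter_upwards [coe_mulC (ContinuousMap.const _ c) h, Lp.coeFn_smul c h] with x h1 h2
  rw [h1, h2]
  simp

/-! ### the operator `V` -/

/-- the phase `e(a θ)` -/
def ph (θ : ℝ) (a : ℤ) : ℂ := Complex.exp (2 * Real.pi * Complex.I * θ * a)

theorem ph_conj (θ : ℝ) (a : ℤ) : ph θ a * conj (ph θ a) = 1 := by
  rw [Complex.mul_conj, Complex.normSq_eq_norm_sq]
  have : ‖ph θ a‖ = 1 := by
    unfold ph
    have e : (2 * (Real.pi : ℂ) * Complex.I * θ * a) = ((2 * Real.pi * θ * a : ℝ) : ℂ) * Complex.I := by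
      push_cast; ring
    rw [e, Complex.norm_exp_ofReal_mul_I]
  rw [this]; simp

theorem fourier_one_coe (θ : ℝ) (a : ℤ) :
    (fourier 1 (((a * θ : ℝ)) : UnitAddCircle) : ℂ) = ph θ a := by
  rw [fourier_coe_apply]
  unfold ph
  congr 1
  push_cast; ring

theorem inner_dl_left (i : ℤ × ℤ) (η : H2) : ⟪dl i, η⟫_ℂ = η i := by
  rw [lp.inner_single_left]; simp

variable {θ : ℝ} {U V : H2 →L[ℂ] H2}

theorem coe_dl (i j : ℤ × ℤ) : dl i j = if j = i then 1 else 0 := by
  rw [lp.single_apply]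
  by_cases h : j = i
  · subst h; simp
  · simp [h]

theorem V_apply (hUV : IsRotationPair θ U V) (η : H2) (a b : ℤ) :
    V η (a, b) = ph θ a * η (a, b - 1) := by
  have h1 : HasSum (fun i => lp.single 2 i (η i)) η := lp.hasSum_single (by norm_num) η
  have h2 := (h1.mapL V).mapL (innerSL ℂ (dl (a, b)))
  have e : ∀ i : ℤ × ℤ, innerSL ℂ (dl (a, b)) (V (lp.single 2 i (η i)))
      = if i = (a, b - 1) then ph θ a * η (a, b - 1) else 0 := by
    rintro ⟨a', b'⟩
    have e1 : (lp.single 2 (a', b') (η (a', b')) : H2) = η (a', b') • dl (a', b') := by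
      rw [← lp.single_smul]; simp
    rw [e1, map_smul, hUV.2 a' b', innerSL_apply_apply, inner_smul_right, inner_smul_right,
      inner_dl_left, coe_dl]
    by_cases h : (a', b') = (a, b - 1)
    · rw [if_pos h]
      obtain ⟨rfl, rfl⟩ := Prod.mk.inj h
      rw [if_pos (by simp)]
      unfold ph; ring
    · rw [if_neg h, if_neg]
      · ring
      · intro h2
        apply h
        obtain ⟨h3, h4⟩ := Prod.mk.inj h2
        ext
        · exact h3.symm
        · show b' = b - 1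
          omega
  simp_rw [e] at h2
  rw [innerSL_apply_apply, inner_dl_left] at h2
  exact h2.unique (hasSum_ite_eq _ _)

theorem V_star_apply (hUV : IsRotationPair θ U V) (η : H2) (a b : ℤ) :
    (star V) η (a, b) = conj (ph θ a) * η (a, b + 1) := by
  rw [← inner_dl_left, ContinuousLinearMap.star_eq_adjoint,
    ContinuousLinearMap.adjoint_inner_right, hUV.2 a b, inner_smul_left, inner_dl_left]
  rfl

theorem V_unitary (hUV : IsRotationPair θ U V) : V ∈ unitary (H2 →L[ℂ] H2) := by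
  rw [Unitary.mem_iff]
  constructor
  · ext η ⟨a, b⟩
    show (star V) (V η) (a, b) = η (a, b)
    rw [V_star_apply hUV, V_apply hUV, add_sub_cancel_right, ← mul_assoc, mul_comm (conj _),
      ph_conj, one_mul]
  · ext η ⟨a, b⟩
    show V ((star V) η) (a, b) = η (a, b)
    rw [V_apply hUV, V_star_apply hUV, sub_add_cancel, ← mul_assoc, ph_conj, one_mul]

theorem V_normal (hUV : IsRotationPair θ U V) : IsStarNormal V := by
  have h := Unitary.mem_iff.mp (V_unitary hUV)
  exact ⟨by rw [commute_iff_eq, h.1, h.2]⟩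

theorem norm_fourier_one (x : UnitAddCircle) : ‖(fourier 1 x : ℂ)‖ = 1 := by
  rw [fourier_apply]; exact Circle.norm_coe _

/-! ### the main property -/

/-- the function `x ↦ f (e(x + k θ))` -/
def phi (θ : ℝ) (f : C(ℂ, ℂ)) (k : ℤ) : C(UnitAddCircle, ℂ) :=
  ⟨fun x => f (fourier 1 (x + ((k * θ : ℝ) : UnitAddCircle))), by fun_prop⟩

@[simp] theorem phi_apply (θ : ℝ) (f : C(ℂ, ℂ)) (k : ℤ) (x : UnitAddCircle) :
    phi θ f k x = f (fourier 1 (x + ((k * θ : ℝ) : UnitAddCircle))) := rfl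

/-- fibre formula for `cfc f V` -/
def Q (θ : ℝ) (V : H2 →L[ℂ] H2) (f : C(ℂ, ℂ)) : Prop :=
  ∀ (η : H2) (k : ℤ), F (cfc f V η) k = mulC (phi θ f k) (F η k)

theorem phi_const (θ : ℝ) (c : ℂ) (k : ℤ) :
    phi θ (ContinuousMap.const _ c) k = ContinuousMap.const _ c := by
  ext x; simp

theorem Q_const (hUV : IsRotationPair θ U V) (c : ℂ) : Q θ V (ContinuousMap.const _ c) := by
  intro η k
  have hn : IsStarNormal V := V_normal hUV
  have e : cfc (⇑(ContinuousMap.const ℂ c)) V = c • (1 : H2 →L[ℂ] H2) := by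
    have := cfc_const c V
    rw [ContinuousMap.coe_const]
    show cfc (fun _ => c) V = _
    rw [this, Algebra.algebraMap_eq_smul_one]
  rw [e, phi_const, mulC_const]
  show F (c • η) k = _
  rw [F_smul]

theorem fourierCoeff_mulC_phi_id (η : H2) (k n : ℤ) :
    fourierCoeff (mulC (phi θ (ContinuousMap.id ℂ) k) (F η k)) n = ph θ k * η (k, n - 1) := by
  rw [fourierCoeff_congr_ae (coe_mulC _ _), ← fourierCoeff_F]
  unfold fourierCoeff
  rw [← integral_const_mul]
  refine integral_congr_ae (Filter.Eventually.of_forall fun x => ?_)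
  simp only [phi_apply, ContinuousMap.id_apply, smul_eq_mul]
  have e1 : (fourier 1 (x + ((k * θ : ℝ) : UnitAddCircle)) : ℂ)
      = fourier 1 x * ph θ k := by
    rw [← fourier_one_coe]
    rw [fourier_apply, fourier_apply, fourier_apply]
    simp only [one_smul]
    rw [toCircle_add]
    simp
  have e2 : (fourier (-(n - 1)) x : ℂ) = fourier (-n) x * fourier 1 x := by
    rw [← fourier_add]; congr 2; ring
  rw [e1, e2]; ring

theorem Q_id (hUV : IsRotationPair θ U V) : Q θ V (ContinuousMap.id ℂ) := by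
  intro η k
  have hn : IsStarNormal V := V_normal hUV
  have e : cfc (⇑(ContinuousMap.id ℂ)) V = V := by
    rw [ContinuousMap.coe_id]; exact cfc_id ℂ V
  rw [e]
  refine eq_of_fourierCoeff (fun n => ?_)
  rw [fourierCoeff_mulC_phi_id, fourierCoeff_F, V_apply hUV]

theorem Q_star (hUV : IsRotationPair θ U V) : Q θ V (star (ContinuousMap.id ℂ)) := by
  intro η k
  have hn : IsStarNormal V := V_normal hUV
  have e : cfc (⇑(star (ContinuousMap.id ℂ))) V = star V := by
    have h1 := cfc_star_id (R := ℂ) V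
    exact h1
  rw [e]
  -- multiply by `phi id`
  have h1 := Q_id hUV (star V η) k
  have e2 : cfc (⇑(ContinuousMap.id ℂ)) V = V := by
    rw [ContinuousMap.coe_id]; exact cfc_id ℂ V
  rw [e2] at h1
  have e3 : V (star V η) = η := by
    have := (Unitary.mem_iff.mp (V_unitary hUV)).2
    exact DFunLike.congr_fun this η
  rw [e3] at h1
  rw [h1, ← mulC_mul]
  have e4 : phi θ (star (ContinuousMap.id ℂ)) k * phi θ (ContinuousMap.id ℂ) k
      = ContinuousMap.const _ 1 := by
    ext x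
    simp only [ContinuousMap.mul_apply, phi_apply, ContinuousMap.star_apply, ContinuousMap.id_apply,
      ContinuousMap.const_apply]
    have h2 := norm_fourier_one (x + ((k * θ : ℝ) : UnitAddCircle))
    generalize (fourier 1 (x + ((k * θ : ℝ) : UnitAddCircle)) : ℂ) = z at h2
    rw [RCLike.star_def, Complex.conj_mul', h2]; simp
  rw [e4, mulC_const, one_smul]

theorem Q_add (hUV : IsRotationPair θ U V) {f g : C(ℂ, ℂ)} (hf : Q θ V f) (hg : Q θ V g) :
    Q θ V (f + g) := by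
  intro η k
  have hn : IsStarNormal V := V_normal hUV
  have e : cfc (⇑(f + g)) V = cfc f V + cfc g V :=
    cfc_add (a := V) (fun x => f x) (fun x => g x) f.continuous.continuousOn g.continuous.continuousOn
  have e2 : phi θ (f + g) k = phi θ f k + phi θ g k := by ext x; simp
  rw [e, _root_.add_apply, F_add, hf, hg, e2, mulC_add]

theorem Q_mul (hUV : IsRotationPair θ U V) {f g : C(ℂ, ℂ)} (hf : Q θ V f) (hg : Q θ V g) :
    Q θ V (f * g) := by
  intro η k
  have hn : IsStarNormal V := V_normal hUV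
  have e : cfc (⇑(f * g)) V = cfc f V * cfc g V :=
    cfc_mul (fun x => f x) (fun x => g x) V f.continuous.continuousOn g.continuous.continuousOn
  have e2 : phi θ (f * g) k = phi θ f k * phi θ g k := by ext x; simp
  rw [e, mul_apply_eq_comp, hf, hg, e2, mulC_mul]

theorem spectrum_sub (hUV : IsRotationPair θ U V) {z : ℂ} (hz : z ∈ spectrum ℂ V) :
    ‖z‖ = 1 := by
  have := (spectrum.subset_circle_of_unitary (𝕜 := ℂ) (V_unitary hUV)) hz
  simpa using this

theorem Q_congr (hUV : IsRotationPair θ U V) {f g : C(ℂ, ℂ)} (hf : Q θ V f)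
    (h : ∀ z : ℂ, ‖z‖ = 1 → f z = g z) : Q θ V g := by
  intro η k
  have e : cfc (⇑g) V = cfc (⇑f) V := cfc_congr (fun z hz => (h z (spectrum_sub hUV hz)).symm)
  have e2 : phi θ g k = phi θ f k := by
    ext x
    simp only [phi_apply]
    exact (h _ (norm_fourier_one _)).symm
  rw [e, e2]; exact hf η k

theorem Q_lim (hUV : IsRotationPair θ U V) {f : C(ℂ, ℂ)}
    (h : ∀ ε : ℝ, 0 < ε → ∃ g : C(ℂ, ℂ), Q θ V g ∧ ∀ z : ℂ, ‖z‖ = 1 → ‖f z - g z‖ ≤ ε) :
    Q θ V f := by
  intro η k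
  have hn : IsStarNormal V := V_normal hUV
  rw [← sub_eq_zero, ← norm_le_zero_iff]
  refine le_of_forall_pos_le_add (fun ε hε => ?_)
  rw [zero_add]
  obtain ⟨g, hg, hfg⟩ := h (ε / (2 * ‖η‖ + 1)) (by positivity)
  have h1 : ‖cfc f V - cfc g V‖ ≤ ε / (2 * ‖η‖ + 1) := by
    rw [← cfc_sub (a := V) (fun x => f x) (fun x => g x) f.continuous.continuousOn
      g.continuous.continuousOn]
    exact norm_cfc_le (by positivity) (fun z hz => hfg z (spectrum_sub hUV hz))
  have h2 : ‖F (cfc f V η) k - F (cfc g V η) k‖ ≤ ε / (2 * ‖η‖ + 1) * ‖η‖ := by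
    rw [← F_sub]
    refine (norm_F_le _ _).trans ?_
    rw [← _root_.sub_apply]
    exact (ContinuousLinearMap.le_opNorm _ _).trans (mul_le_mul_of_nonneg_right h1 (norm_nonneg _))
  have h3 : ‖mulC (phi θ f k) (F η k) - mulC (phi θ g k) (F η k)‖ ≤ ε / (2 * ‖η‖ + 1) * ‖η‖ := by
    rw [mulC_sub]
    refine (norm_mulC_le _ _).trans (mul_le_mul ?_ (norm_F_le _ _) (norm_nonneg _) (by positivity))
    rw [ContinuousMap.norm_le _ (by positivity)]
    intro x
    simp only [ContinuousMap.sub_apply, phi_apply]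
    exact hfg _ (norm_fourier_one _)
  rw [hg] at h2
  have h4 : ‖F (cfc f V η) k - mulC (phi θ f k) (F η k)‖ ≤
      ε / (2 * ‖η‖ + 1) * ‖η‖ + ε / (2 * ‖η‖ + 1) * ‖η‖ := by
    calc ‖F (cfc f V η) k - mulC (phi θ f k) (F η k)‖
        = ‖(F (cfc f V η) k - mulC (phi θ g k) (F η k))
            - (mulC (phi θ f k) (F η k) - mulC (phi θ g k) (F η k))‖ := by congr 1; abel
      _ ≤ _ := (norm_sub_le _ _).trans (add_le_add h2 h3)
  refine h4.trans ?_
  have h5 : ε / (2 * ‖η‖ + 1) * ‖η‖ + ε / (2 * ‖η‖ + 1) * ‖η‖ = ε * (2 * ‖η‖ / (2 * ‖η‖ + 1)) := by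
    field_simp; ring
  rw [h5]
  have h6 : 2 * ‖η‖ / (2 * ‖η‖ + 1) ≤ 1 := by
    rw [div_le_one (by positivity)]; linarith
  nlinarith

/-- **fibre formula** for all continuous functions -/
theorem Q_all (hUV : IsRotationPair θ U V) (f : C(ℂ, ℂ)) : Q θ V f := by
  set s : Set ℂ := Metric.sphere (0 : ℂ) 1 with hs
  have hsc : IsClosed s := Metric.isClosed_sphere
  have : CompactSpace s := isCompact_iff_compactSpace.mp (isCompact_sphere _ _)
  have key : ∀ g : C(s, ℂ), ∀ f : C(ℂ, ℂ), f.restrict s = g → Q θ V f := by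
    intro g
    have hval : ∀ {f : C(ℂ, ℂ)} {g : C(s, ℂ)}, f.restrict s = g → ∀ z : ℂ, (hz : ‖z‖ = 1) →
        f z = g ⟨z, by simpa [hs] using hz⟩ := by
      intro f g h z hz
      rw [← h]; rfl
    induction g using ContinuousMap.induction_on_of_compact with
    | const r =>
      intro f hf
      refine Q_congr hUV (Q_const hUV r) (fun z hz => ?_)
      rw [hval hf z hz]; rfl
    | id =>
      intro f hf
      refine Q_congr hUV (Q_id hUV) (fun z hz => ?_)
      rw [hval hf z hz]; rfl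
    | star_id =>
      intro f hf
      refine Q_congr hUV (Q_star hUV) (fun z hz => ?_)
      rw [hval hf z hz]; rfl
    | add g1 g2 h1 h2 =>
      intro f hf
      obtain ⟨f1, hf1⟩ := ContinuousMap.exists_restrict_eq hsc g1
      obtain ⟨f2, hf2⟩ := ContinuousMap.exists_restrict_eq hsc g2
      refine Q_congr hUV (Q_add hUV (h1 f1 hf1) (h2 f2 hf2)) (fun z hz => ?_)
      rw [hval hf z hz, ContinuousMap.add_apply, ContinuousMap.add_apply, hval hf1 z hz,
        hval hf2 z hz]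
    | mul g1 g2 h1 h2 =>
      intro f hf
      obtain ⟨f1, hf1⟩ := ContinuousMap.exists_restrict_eq hsc g1
      obtain ⟨f2, hf2⟩ := ContinuousMap.exists_restrict_eq hsc g2
      refine Q_congr hUV (Q_mul hUV (h1 f1 hf1) (h2 f2 hf2)) (fun z hz => ?_)
      rw [hval hf z hz, ContinuousMap.mul_apply, ContinuousMap.mul_apply, hval hf1 z hz,
        hval hf2 z hz]
    | frequently g0 h =>
      intro f hf
      refine Q_lim hUV (fun ε hε => ?_)
      have hev : ∀ᶠ g in 𝓝 g0, ‖g0 - g‖ < ε := by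
        have : Filter.Tendsto (fun g => ‖g0 - g‖) (𝓝 g0) (𝓝 ‖g0 - g0‖) := by
          exact ((continuous_const.sub continuous_id).norm).tendsto _
        rw [sub_self, norm_zero] at this
        exact this.eventually_lt_const hε
      obtain ⟨g, hg1, hg2⟩ := (h.and_eventually hev).exists
      obtain ⟨f', hf'⟩ := ContinuousMap.exists_restrict_eq hsc g
      refine ⟨f', hg1 f' hf', fun z hz => ?_⟩
      rw [hval hf z hz, hval hf' z hz, ← ContinuousMap.sub_apply]
      exact ((g0 - g).norm_coe_le_norm _).trans hg2.le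
  exact key _ f rfl

/-- **fibre formula** in pointwise form -/
theorem F_cfc (hUV : IsRotationPair θ U V) (f : ℂ → ℂ) (hf : Continuous f) (η : H2) (k : ℤ) :
    F (cfc f V η) k =ᵐ[μT]
      fun x => f (fourier 1 (x + ((k * θ : ℝ) : UnitAddCircle))) * F η k x := by
  have h1 := Q_all hUV ⟨f, hf⟩ η k
  have h2 : cfc (⇑(⟨f, hf⟩ : C(ℂ, ℂ))) V = cfc f V := rfl
  rw [h2] at h1
  rw [h1]
  exact coe_mulC _ _

end

end Crest.Agent.R113.FibCfc
end

-- ▼ part R113/Fib/Field
section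

/-!
The field of projections (row 113, S0149, task T15): pointwise identities, almost everywhere.
-/

set_option autoImplicit false
open MeasureTheory Complex Filter AddCircle
open scoped ENNReal ComplexConjugate InnerProductSpace Topology
open Crest.AnalysisR.RotationRep

namespace Crest.Agent.R113.Fib

/-! ### pairing with basis vectors -/

theorem row_dz_self (a : ℤ) : row (dz ((a, 0) : ℤ × ℤ)) a = lp.single 2 0 (1 : ℂ) := by
  ext n
  rw [row_apply]
  by_cases h : n = 0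
  · subst h; simp
  · have : ((a, n) : ℤ × ℤ) ≠ (a, 0) := by simpa using h
    rw [dz, lp.single_apply_ne _ _ _ this, lp.single_apply_ne _ _ _ h]

theorem row_dz_ne (a m : ℤ) (hm : m ≠ a) : row (dz ((a, 0) : ℤ × ℤ)) m = 0 := by
  ext n
  rw [row_apply]
  have : ((m, n) : ℤ × ℤ) ≠ (a, 0) := by simp [hm]
  rw [dz, lp.single_apply_ne _ _ _ this]
  rfl

theorem Phi_dz_self (a : ℤ) : Phi (dz ((a, 0) : ℤ × ℤ)) a =ᵐ[mu] fun _ => 1 := by
  rw [Phi, row_dz_self, HilbertBasis.repr_symm_single, coe_fourierBasis]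
  filter_upwards [coeFn_fourierLp (T := (1 : ℝ)) 2 0] with x hx
  rw [hx, fourier_zero]

theorem Phi_dz_ne (a m : ℤ) (hm : m ≠ a) : Phi (dz ((a, 0) : ℤ × ℤ)) m =ᵐ[mu] fun _ => 0 := by
  rw [Phi, row_dz_ne a m hm, map_zero]
  exact Lp.coeFn_zero _ _ _

theorem ae_Phi_dz (a : ℤ) : ∀ᵐ x ∂mu, ∀ m, Phi (dz ((a, 0) : ℤ × ℤ)) m x = if m = a then 1 else 0 := by
  rw [ae_all_iff]
  intro m
  by_cases h : m = a
  · subst h
    filter_upwards [Phi_dz_self m] with x hx
    simpa using hx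
  · filter_upwards [Phi_dz_ne a m h] with x hx
    simpa [h] using hx

theorem ip_dz_left (a : ℤ) (ζ : L2ZZ) : ip (dz ((a, 0) : ℤ × ℤ)) ζ =ᵐ[mu] Phi ζ a := by
  filter_upwards [ae_Phi_dz a] with x hx
  simp only [ip, hx]
  rw [tsum_eq_single a]
  · simp
  · intro m hm
    simp [hm]

theorem ip_dz_right (a : ℤ) (ζ : L2ZZ) : ip ζ (dz ((a, 0) : ℤ × ℤ)) =ᵐ[mu] fun x => conj (Phi ζ a x) := by
  filter_upwards [ae_Phi_dz a] with x hx
  simp only [ip, hx]
  rw [tsum_eq_single a]
  · simp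
  · intro m hm
    simp [hm]

/-! ### translation -/

theorem integrable_translate (g : UnitAddCircle → ℂ) (hg : Integrable g mu) (t : UnitAddCircle) :
    Integrable (fun x => g (x + t)) mu :=
  hg.comp_add_right t

theorem fourierCoeff_translate (g : UnitAddCircle → ℂ) (t : UnitAddCircle) (n : ℤ) :
    fourierCoeff (fun x => g (x + t)) n = fourier n t * fourierCoeff g n := by
  simp only [fourierCoeff, smul_eq_mul]
  rw [← integral_const_mul, ← integral_add_right_eq_self (fun x => fourier n t * (fourier (-n) x * g x)) t]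
  refine integral_congr_ae (Eventually.of_forall fun x => ?_)
  simp only
  rw [← mul_assoc]
  congr 1
  have h : (fourier (-n) (x + t) : ℂ) = fourier (-n) x * fourier (-n) t := by
    simp only [fourier_apply, smul_add, AddCircle.toCircle_add]
    rfl
  have h2 : (fourier n t : ℂ) * fourier (-n) t = 1 := by
    rw [← fourier_add]; simp
  rw [h, mul_comm (fourier (-n) x : ℂ), ← mul_assoc, h2, one_mul]

section main
variable {θ : ℝ} {U V : L2ZZ →L[ℂ] L2ZZ} (hUV : IsRotationPair θ U V)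
  {p : L2ZZ →L[ℂ] L2ZZ} (hp : p ∈ vonNeumannGenerated {U, V}) (hpr : IsStarProjection p)

include hUV hp hpr

theorem ip_p (v ζ : L2ZZ) : ip (p v) ζ =ᵐ[mu] ip v (p ζ) := by
  refine ip_congr _ _ _ _ ?_ ?_
  · intro b η' η₁' h1 h2
    have e1 : η' = Sh b (p v) := by
      ext ⟨m, n⟩
      rw [h1, Sh_apply]
    have e2 : η₁' = Sh b v := by
      ext ⟨m, n⟩
      rw [h2, Sh_apply]
    rw [e1, e2, ← p_Sh hUV hp]
    have hsa : ContinuousLinearMap.adjoint p = p := by
      rw [← ContinuousLinearMap.star_eq_adjoint]; exact hpr.isSelfAdjoint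
    rw [← ContinuousLinearMap.adjoint_inner_left, hsa]
  · intro b v
    exact ⟨Sh b v, fun m n => Sh_apply b m n v⟩

omit hUV hp in
theorem p_p (v : L2ZZ) : p (p v) = p v := by
  have := congrArg (fun A => A v) hpr.isIdempotentElem.eq
  simpa using this

theorem ip_xi (a a' : ℤ) :
    ip (p (dz ((a, 0) : ℤ × ℤ))) (p (dz ((a', 0) : ℤ × ℤ))) =ᵐ[mu] Phi (p (dz ((a', 0) : ℤ × ℤ))) a := by
  refine (ip_p hUV hp hpr _ _).trans ?_
  rw [p_p hpr]
  exact ip_dz_left _ _

theorem ip_xi' (a a' : ℤ) :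
    ip (p (dz ((a, 0) : ℤ × ℤ))) (p (dz ((a', 0) : ℤ × ℤ))) =ᵐ[mu]
      fun x => conj (Phi (p (dz ((a, 0) : ℤ × ℤ))) a' x) := by
  refine (ip_p hUV hp hpr (p (dz ((a, 0) : ℤ × ℤ))) (dz ((a', 0) : ℤ × ℤ))).symm.trans ?_
  rw [p_p hpr]
  exact ip_dz_right _ _

omit hpr in
theorem xi_shift (a m n : ℤ) :
    p (dz ((a + 1, 0) : ℤ × ℤ)) (m + 1, n) = ee (n * θ) * p (dz ((a, 0) : ℤ × ℤ)) (m, n) := by
  have h1 : Tw θ (dz ((a, 0) : ℤ × ℤ)) = dz ((a + 1, 0) : ℤ × ℤ) := by
    rw [Tw, Wop_single, sg1_symm_apply]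
    simp [ee_zero]
  rw [← h1, p_Tw hUV hp, Tw_apply]
  simp

omit hpr in
theorem Phi_xi_cov (a m : ℤ) :
    (fun x => Phi (p (dz ((a, 0) : ℤ × ℤ))) m (x + ((θ : ℝ) : UnitAddCircle))) =ᵐ[mu]
      Phi (p (dz ((a + 1, 0) : ℤ × ℤ))) (m + 1) := by
  refine ae_eq_Phi _ _ _ (integrable_translate _ (integrable_Phi _ _) _) ?_
  intro n
  rw [fourierCoeff_translate, fourierCoeff_Phi, fourier_real, xi_shift hUV hp]

omit hp hpr in
theorem Phi_U (ζ : L2ZZ) (m : ℤ) : Phi (U ζ) m = Phi ζ (m - 1) := by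
  rw [Phi, Phi]
  congr 1
  ext n
  rw [row_apply, row_apply, U_apply hUV]

omit hp hpr in
theorem Phi_T (f : ℂ → ℝ) (hf : Continuous f) (v : L2ZZ) (m : ℤ) :
    Phi ((U * cfc (fun z : ℂ => (f z : ℂ)) V) v) m =ᵐ[mu]
      fun x => (f (fourier 1 (x + (((m - 1 : ℤ) * θ : ℝ) : UnitAddCircle))) : ℂ) * Phi v (m - 1) x := by
  rw [mul_apply_eq_comp, Phi_U hUV]
  exact FibCfc.F_cfc hUV (fun z : ℂ => (f z : ℂ)) (Complex.continuous_ofReal.comp hf) v (m - 1)

theorem ip_inv (T : L2ZZ →L[ℂ] L2ZZ) (hT : (1 - p) * T * p = 0) (v w : L2ZZ) :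
    ip (p v) (T (p w)) =ᵐ[mu] ip v (T (p w)) := by
  have h1 : p (T (p w)) = T (p w) := by
    have := congrArg (fun A => A w) hT
    simp only [mul_apply_eq_comp, sub_apply, one_apply_eq_self,
      zero_apply] at this
    exact (sub_eq_zero.1 this).symm
  have := ip_p hUV hp hpr v (T (p w))
  rwa [h1] at this

end main

end Crest.Agent.R113.Fib
end

-- ▼ part R113/Fib/Main
section

/-!
The fibre theorem (row 113, S0149, task T15).
-/

set_option autoImplicit false
open MeasureTheory Complex Filter AddCircle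
open scoped ENNReal ComplexConjugate InnerProductSpace Topology
open Crest.AnalysisR.RotationRep

namespace Crest.Agent.R113.Fib

/-- Orthogonal projection onto the closed span of a sequence of vectors. -/
noncomputable def PK (s : ℤ → L2Z) : L2Z →L[ℂ] L2Z :=
  haveI : CompleteSpace (Submodule.span ℂ (Set.range s)).topologicalClosure :=
    (Submodule.isClosed_topologicalClosure _).completeSpace_coe
  (Submodule.span ℂ (Set.range s)).topologicalClosure.starProjection

theorem PK_proj (s : ℤ → L2Z) : IsStarProjection (PK s) := by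
  have : CompleteSpace (Submodule.span ℂ (Set.range s)).topologicalClosure :=
    (Submodule.isClosed_topologicalClosure _).completeSpace_coe
  exact isStarProjection_starProjection

theorem inner_dz_left (a : ℤ) (v : L2Z) : ⟪dz a, v⟫_ℂ = v a := by
  rw [dz, lp.inner_single_left]; simp

theorem inner_dz_right (a : ℤ) (v : L2Z) : ⟪v, dz a⟫_ℂ = conj (v a) := by
  rw [← inner_conj_symm, inner_dz_left]

theorem PK_dz (s : ℤ → L2Z) (h1 : ∀ a a', ⟪s a, s a'⟫_ℂ = s a' a)
    (h2 : ∀ a a', ⟪s a, s a'⟫_ℂ = conj (s a a')) (a : ℤ) : PK s (dz a) = s a := by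
  have : CompleteSpace (Submodule.span ℂ (Set.range s)).topologicalClosure :=
    (Submodule.isClosed_topologicalClosure _).completeSpace_coe
  refine Submodule.eq_starProjection_of_mem_orthogonal ?_ ?_
  · exact Submodule.le_topologicalClosure _ (Submodule.subset_span ⟨a, rfl⟩)
  · rw [Submodule.orthogonal_closure, Submodule.mem_orthogonal]
    intro u hu
    induction hu using Submodule.span_induction with
    | mem x hx =>
      obtain ⟨b, rfl⟩ := hx
      rw [inner_sub_right, inner_dz_right, h2, sub_self]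
    | zero => simp
    | add x y _ _ hx hy => rw [inner_add_left, hx, hy, add_zero]
    | smul c x _ hx => rw [inner_smul_left, hx, mul_zero]

theorem PK_fix (s : ℤ → L2Z) (h1 : ∀ a a', ⟪s a, s a'⟫_ℂ = s a' a)
    (h2 : ∀ a a', ⟪s a, s a'⟫_ℂ = conj (s a a')) (w : L2Z) (hw : ∀ c, ⟪s c, w⟫_ℂ = w c) :
    PK s w = w := by
  have hsa : ContinuousLinearMap.adjoint (PK s) = PK s := by
    rw [← ContinuousLinearMap.star_eq_adjoint]; exact (PK_proj s).isSelfAdjoint
  ext c
  rw [← inner_dz_left, ← inner_dz_left c w, ← ContinuousLinearMap.adjoint_inner_left, hsa,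
    PK_dz s h1 h2, hw, inner_dz_left]

/-- the fibre vector -/
noncomputable def fv (η : L2ZZ) (x : UnitAddCircle) : L2Z := by
  classical
  exact if h : Summable (fun m => ‖Phi η m x‖ ^ 2) then ⟨fun m => Phi η m x, memlp_of_summable_sq _ h⟩ else 0

theorem fv_apply (η : L2ZZ) (x : UnitAddCircle) (h : Summable (fun m => ‖Phi η m x‖ ^ 2)) (m : ℤ) :
    fv η x m = Phi η m x := by
  rw [fv, dif_pos h]

theorem inner_fv (η ζ : L2ZZ) (x : UnitAddCircle) (h : Summable (fun m => ‖Phi η m x‖ ^ 2))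
    (h' : Summable (fun m => ‖Phi ζ m x‖ ^ 2)) : ⟪fv η x, fv ζ x⟫_ℂ = ip η ζ x := by
  rw [lp.inner_eq_tsum, ip]
  refine tsum_congr fun m => ?_
  rw [fv_apply η x h, fv_apply ζ x h', RCLike.inner_apply, mul_comm]

/-- the good set -/
def G (θ : ℝ) (p T : L2ZZ →L[ℂ] L2ZZ) (f : ℂ → ℝ) (x : UnitAddCircle) : Prop :=
  (∀ a : ℤ, Summable (fun m => ‖Phi (p (dz ((a, 0) : ℤ × ℤ))) m x‖ ^ 2)) ∧
  (∀ a : ℤ, Summable (fun m => ‖Phi (T (p (dz ((a, 0) : ℤ × ℤ)))) m x‖ ^ 2)) ∧
  (∀ a a' : ℤ, ip (p (dz ((a, 0) : ℤ × ℤ))) (p (dz ((a', 0) : ℤ × ℤ))) x = Phi (p (dz ((a', 0) : ℤ × ℤ))) a x) ∧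
  (∀ a a' : ℤ, ip (p (dz ((a, 0) : ℤ × ℤ))) (p (dz ((a', 0) : ℤ × ℤ))) x =
    conj (Phi (p (dz ((a, 0) : ℤ × ℤ))) a' x)) ∧
  (∀ a m : ℤ, Phi (T (p (dz ((a, 0) : ℤ × ℤ)))) m x =
    (f (fourier 1 (x + (((m - 1 : ℤ) * θ : ℝ) : UnitAddCircle))) : ℂ) * Phi (p (dz ((a, 0) : ℤ × ℤ))) (m - 1) x) ∧
  (∀ c a : ℤ, ip (p (dz ((c, 0) : ℤ × ℤ))) (T (p (dz ((a, 0) : ℤ × ℤ)))) x = Phi (T (p (dz ((a, 0) : ℤ × ℤ)))) c x) ∧
  (∀ a m : ℤ, Phi (p (dz ((a, 0) : ℤ × ℤ))) m (x + ((θ : ℝ) : UnitAddCircle)) =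
    Phi (p (dz ((a + 1, 0) : ℤ × ℤ))) (m + 1) x)

theorem ae_G {θ : ℝ} {U V : L2ZZ →L[ℂ] L2ZZ} (hUV : IsRotationPair θ U V)
    {p : L2ZZ →L[ℂ] L2ZZ} (hp : p ∈ vonNeumannGenerated {U, V}) (hpr : IsStarProjection p)
    (f : ℂ → ℝ) (hf : Continuous f)
    (hinv : (1 - p) * (U * cfc (fun z : ℂ => (f z : ℂ)) V) * p = 0) :
    ∀ᵐ x ∂mu, G θ p (U * cfc (fun z : ℂ => (f z : ℂ)) V) f x := by
  have h1 : ∀ᵐ x ∂mu, ∀ a : ℤ, Summable (fun m => ‖Phi (p (dz ((a, 0) : ℤ × ℤ))) m x‖ ^ 2) :=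
    ae_all_iff.2 fun a => ae_summable _
  have h2 : ∀ᵐ x ∂mu, ∀ a : ℤ, Summable (fun m => ‖Phi ((U * cfc (fun z : ℂ => (f z : ℂ)) V) (p (dz ((a, 0) : ℤ × ℤ)))) m x‖ ^ 2) :=
    ae_all_iff.2 fun a => ae_summable _
  have h3 := ae_all_iff.2 fun a => ae_all_iff.2 fun a' => ip_xi hUV hp hpr a a'
  have h4 := ae_all_iff.2 fun a => ae_all_iff.2 fun a' => ip_xi' hUV hp hpr a a'
  have h5 := ae_all_iff.2 fun a : ℤ => ae_all_iff.2 fun m => Phi_T hUV f hf (p (dz ((a, 0) : ℤ × ℤ))) m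
  have h6 := ae_all_iff.2 fun c : ℤ => ae_all_iff.2 fun a : ℤ =>
    (ip_inv hUV hp hpr _ hinv (dz ((c, 0) : ℤ × ℤ)) (dz ((a, 0) : ℤ × ℤ))).trans (ip_dz_left c _)
  have h7 := ae_all_iff.2 fun a => ae_all_iff.2 fun m => Phi_xi_cov hUV hp a m
  filter_upwards [h1, h2, h3, h4, h5, h6, h7] with x g1 g2 g3 g4 g5 g6 g7
  exact ⟨g1, g2, g3, g4, g5, g6, g7⟩

/-- the invariant null set -/
def NN (θ : ℝ) (B : Set UnitAddCircle) : Set UnitAddCircle :=
  ⋃ k : ℤ, (fun x => x + k • ((θ : ℝ) : UnitAddCircle)) ⁻¹' (toMeasurable mu B)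

theorem measurableSet_NN (θ : ℝ) (B : Set UnitAddCircle) : MeasurableSet (NN θ B) :=
  MeasurableSet.iUnion fun _ => (measurable_add_const _) (measurableSet_toMeasurable _ _)

theorem NN_null (θ : ℝ) (B : Set UnitAddCircle) (hB : mu B = 0) : mu (NN θ B) = 0 := by
  rw [NN, measure_iUnion_null_iff]
  intro k
  rw [measure_preimage_add_right, measure_toMeasurable, hB]

theorem NN_inv (θ : ℝ) (B : Set UnitAddCircle) (x : UnitAddCircle) :
    x + ((θ : ℝ) : UnitAddCircle) ∈ NN θ B ↔ x ∈ NN θ B := by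
  simp only [NN, Set.mem_iUnion, Set.mem_preimage]
  constructor
  · rintro ⟨k, hk⟩
    refine ⟨k + 1, ?_⟩
    rwa [add_smul, one_smul, add_comm (k • _), ← add_assoc]
  · rintro ⟨k, hk⟩
    refine ⟨k - 1, ?_⟩
    rwa [sub_smul, one_smul, add_sub, add_assoc, add_comm ((θ : ℝ) : UnitAddCircle), ← add_assoc,
      add_sub_cancel_right]

theorem not_mem_NN (θ : ℝ) (B : Set UnitAddCircle) (x : UnitAddCircle) (hx : x ∉ NN θ B) : x ∉ B := by
  intro h
  apply hx
  simp only [NN, Set.mem_iUnion, Set.mem_preimage]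
  refine ⟨0, ?_⟩
  rw [zero_smul, add_zero]
  exact subset_toMeasurable _ _ h

theorem volume_eq_mu : (volume : Measure UnitAddCircle) = mu := by
  rw [AddCircle.volume_eq_smul_haarAddCircle]
  simp

theorem exists_fibres (θ : ℝ) (f : ℂ → ℝ) (hf : Continuous f) (U V p : L2ZZ →L[ℂ] L2ZZ)
    (hUV : IsRotationPair θ U V) (hp : p ∈ vonNeumannGenerated {U, V}) (hpr : IsStarProjection p)
    (hinv : (1 - p) * (U * cfc (fun z : ℂ => (f z : ℂ)) V) * p = 0) :
    ∃ P : UnitAddCircle → (L2Z →L[ℂ] L2Z),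
      (∀ x, IsStarProjection (P x)) ∧
      (∀ m m' : ℤ, Measurable fun x => (P x (lp.single 2 m' (1 : ℂ)) : ℤ → ℂ) m) ∧
      (∀ x (m m' : ℤ), (P (x + ((θ : ℝ) : UnitAddCircle)) (lp.single 2 m' (1 : ℂ)) : ℤ → ℂ) m =
        (P x (lp.single 2 (m' + 1) (1 : ℂ)) : ℤ → ℂ) (m + 1)) ∧
      (∀ x (T : L2Z →L[ℂ] L2Z), (∀ m : ℤ, T (lp.single 2 m (1 : ℂ)) =
          ((f (fourier 1 (x + ((m * θ : ℝ) : UnitAddCircle))) : ℝ) : ℂ) • lp.single 2 (m + 1) (1 : ℂ)) →
        (1 - P x) * T * P x = 0) ∧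
      (∫ x, ‖P x (lp.single 2 0 (1 : ℂ))‖ ^ 2 = ‖p (lp.single 2 (0, 0) (1 : ℂ))‖ ^ 2) := by
  classical
  set T₀ : L2ZZ →L[ℂ] L2ZZ := U * cfc (fun z : ℂ => (f z : ℂ)) V with hT₀
  set B : Set UnitAddCircle := {x | ¬ G θ p T₀ f x} with hB
  have hB0 : mu B = 0 := ae_G hUV hp hpr f hf hinv
  set N := NN θ B with hN
  have hN0 : mu N = 0 := NN_null θ B hB0
  have hNm : MeasurableSet N := measurableSet_NN θ B
  have hG : ∀ x, x ∉ N → G θ p T₀ f x := by
    intro x hx
    have := not_mem_NN θ B x hx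
    simpa [hB] using this
  let s : UnitAddCircle → ℤ → L2Z := fun x a => fv (p (dz ((a, 0) : ℤ × ℤ))) x
  have hs1 : ∀ x, x ∉ N → ∀ a a', ⟪s x a, s x a'⟫_ℂ = s x a' a := by
    intro x hx a a'
    obtain ⟨g1, g2, g3, g4, g5, g6, g7⟩ := hG x hx
    simp only [s]
    rw [inner_fv _ _ x (g1 a) (g1 a'), g3, fv_apply _ x (g1 a')]
  have hs2 : ∀ x, x ∉ N → ∀ a a', ⟪s x a, s x a'⟫_ℂ = conj (s x a a') := by
    intro x hx a a'
    obtain ⟨g1, g2, g3, g4, g5, g6, g7⟩ := hG x hx
    simp only [s]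
    rw [inner_fv _ _ x (g1 a) (g1 a'), g4, fv_apply _ x (g1 a)]
  let P : UnitAddCircle → (L2Z →L[ℂ] L2Z) := fun x => if x ∈ N then 0 else PK (s x)
  have hPN : ∀ x, x ∈ N → P x = 0 := fun x hx => by simp only [P, if_pos hx]
  have hPn : ∀ x, x ∉ N → P x = PK (s x) := fun x hx => by simp only [P, if_neg hx]
  have hPd : ∀ x, x ∉ N → ∀ a, P x (dz a) = s x a := by
    intro x hx a
    rw [hPn x hx, PK_dz _ (hs1 x hx) (hs2 x hx)]
  have hPc : ∀ x, x ∉ N → ∀ a m, P x (dz a) m = Phi (p (dz ((a, 0) : ℤ × ℤ))) m x := by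
    intro x hx a m
    rw [hPd x hx]
    exact fv_apply _ x ((hG x hx).1 a) m
  refine ⟨P, ?_, ?_, ?_, ?_, ?_⟩
  · intro x
    by_cases hx : x ∈ N
    · rw [hPN x hx]; exact IsStarProjection.zero _
    · rw [hPn x hx]; exact PK_proj _
  · intro m m'
    have : (fun x => (P x (lp.single 2 m' (1 : ℂ)) : ℤ → ℂ) m) =
        fun x => if x ∈ N then 0 else Phi (p (dz ((m', 0) : ℤ × ℤ))) m x := by
      funext x
      by_cases hx : x ∈ N
      · rw [hPN x hx, if_pos hx]; rfl
      · rw [if_neg hx]; exact hPc x hx m' m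
    rw [this]
    exact Measurable.ite hNm measurable_const (Lp.stronglyMeasurable _).measurable
  · intro x m m'
    by_cases hx : x ∈ N
    · have hx' : x + ((θ : ℝ) : UnitAddCircle) ∈ N := (NN_inv θ B x).2 hx
      rw [hPN x hx, hPN _ hx']; rfl
    · have hx' : x + ((θ : ℝ) : UnitAddCircle) ∉ N := fun h => hx ((NN_inv θ B x).1 h)
      have e1 := hPc _ hx' m' m
      have e2 := hPc _ hx (m' + 1) (m + 1)
      obtain ⟨g1, g2, g3, g4, g5, g6, g7⟩ := hG x hx
      rw [g7] at e1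
      exact e1.trans e2.symm
  · intro x T hT
    by_cases hx : x ∈ N
    · rw [hPN x hx]; simp
    · obtain ⟨g1, g2, g3, g4, g5, g6, g7⟩ := hG x hx
      refine ext_basis _ _ ?_
      intro a
      -- coordinates of `T v`
      have hTc : ∀ (v : L2Z) (m : ℤ), T v m =
          ((f (fourier 1 (x + (((m - 1 : ℤ) * θ : ℝ) : UnitAddCircle))) : ℝ) : ℂ) * v (m - 1) := by
        intro v m
        have key : (innerSL ℂ (dz m : L2Z)).comp T =
            ((f (fourier 1 (x + (((m - 1 : ℤ) * θ : ℝ) : UnitAddCircle))) : ℝ) : ℂ) • innerSL ℂ (dz (m - 1) : L2Z) := by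
          refine ext_basis _ _ ?_
          intro i
          simp only [ContinuousLinearMap.comp_apply, innerSL_apply_apply, smul_apply, smul_eq_mul]
          rw [show T (dz i) = _ from hT i, inner_smul_right, inner_dz_left, inner_dz_left]
          by_cases hi : i = m - 1
          · subst hi
            simp
          · have : m ≠ i + 1 := fun e => hi (by rw [e]; ring)
            rw [lp.single_apply_ne _ _ _ this, lp.single_apply_ne _ _ _ (Ne.symm hi)]
            simp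
        have := congrArg (fun A => A v) key
        simp only [ContinuousLinearMap.comp_apply, innerSL_apply_apply, smul_apply, smul_eq_mul,
          inner_dz_left] at this
        exact this
      have hTw : T (s x a) = fv (T₀ (p (dz ((a, 0) : ℤ × ℤ)))) x := by
        ext m
        rw [hTc, fv_apply _ x (g2 a), g5]
        congr 1
        exact fv_apply _ x (g1 a) _
      have hfix : P x (T (s x a)) = T (s x a) := by
        rw [hPn x hx]
        refine PK_fix _ (hs1 x hx) (hs2 x hx) _ ?_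
        intro c
        rw [hTw]
        simp only [s]
        rw [inner_fv _ _ x (g1 c) (g2 a), g6, fv_apply _ x (g2 a)]
      simp only [mul_apply_eq_comp, sub_apply, one_apply_eq_self, zero_apply]
      rw [show P x (dz a) = s x a from hPd x hx a, hfix, sub_self]
  · rw [volume_eq_mu]
    have h1 : (fun x => ‖P x (lp.single 2 0 (1 : ℂ))‖ ^ 2) =ᵐ[mu]
        fun x => (ip (p (dz ((0, 0) : ℤ × ℤ))) (p (dz ((0, 0) : ℤ × ℤ))) x).re := by
      have hN' : ∀ᵐ x ∂mu, x ∉ N := measure_eq_zero_iff_ae_notMem.1 hN0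
      filter_upwards [hN'] with x hx
      have g1 := (hG x hx).1
      rw [show P x (lp.single 2 0 (1 : ℂ)) = s x 0 from hPd x hx 0, ← inner_fv _ _ x (g1 0) (g1 0)]
      rw [inner_self_eq_norm_sq_to_K]
      norm_cast
    rw [integral_congr_ae h1]
    have h2 := integral_ip (p (dz ((0, 0) : ℤ × ℤ))) (p (dz ((0, 0) : ℤ × ℤ)))
    have h3 : ∫ x, (ip (p (dz ((0, 0) : ℤ × ℤ))) (p (dz ((0, 0) : ℤ × ℤ))) x).re ∂mu =
        (∫ x, ip (p (dz ((0, 0) : ℤ × ℤ))) (p (dz ((0, 0) : ℤ × ℤ))) x ∂mu).re :=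
      integral_re (integrable_ip _ _)
    rw [h3, h2, inner_self_eq_norm_sq_to_K]
    norm_cast

end Crest.Agent.R113.Fib
end

-- ▼ part R113/Fib/Reduce

/-!
Reduction of S0149 to the fibre statement (row 113, S0149, tasks T15/T18).
-/

set_option autoImplicit false
open MeasureTheory Complex Filter AddCircle
open scoped ENNReal ComplexConjugate InnerProductSpace Topology
open Crest.AnalysisR.RotationRep

namespace Crest.Agent.R113.Fib

section
variable {θ : ℝ} {U V : L2ZZ →L[ℂ] L2ZZ} (hUV : IsRotationPair θ U V)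
  {p : L2ZZ →L[ℂ] L2ZZ} (hp : p ∈ vonNeumannGenerated {U, V})
include hUV hp

/-- an element of the algebra killing `δ_(0,0)` is zero (the trace vector is separating). -/
theorem eq_zero_of_dz (h : p (dz ((0, 0) : ℤ × ℤ)) = 0) : p = 0 := by
  -- first `δ_(a,0)` for all `a`
  have hTw : ∀ a : ℤ, Tw θ (dz ((a, 0) : ℤ × ℤ)) = dz ((a + 1, 0) : ℤ × ℤ) := by
    intro a
    rw [Tw, Wop_single, sg1_symm_apply]
    simp [ee_zero]
  have hinj : ∀ v : L2ZZ, Tw θ v = 0 → v = 0 := by
    intro v hv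
    ext ⟨m, n⟩
    have := congrArg (fun w : L2ZZ => w (m + 1, n)) hv
    simp only [Tw_apply] at this
    have h2 : ee (n * θ) ≠ 0 := by
      intro h0
      have := norm_ee (n * θ)
      rw [h0, norm_zero] at this
      norm_num at this
    have h3 : ee (n * θ) * v (m + 1 - 1, n) = 0 := this
    rw [add_sub_cancel_right] at h3
    exact (mul_eq_zero.1 h3).resolve_left h2
  have h1 : ∀ a : ℤ, p (dz ((a, 0) : ℤ × ℤ)) = 0 := by
    intro a
    induction a using Int.induction_on with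
    | zero => exact h
    | succ i ih => rw [← hTw, p_Tw hUV hp, ih, map_zero]
    | pred i ih =>
      apply hinj
      rw [← p_Tw hUV hp, hTw, sub_add_cancel, ih]
  refine ext_basis _ _ ?_
  rintro ⟨a, b⟩
  have hSh : Sh b (dz ((a, 0) : ℤ × ℤ)) = dz ((a, b) : ℤ × ℤ) := by
    rw [Sh, Wop_single, sg2_symm_apply]
    simp
  rw [← hSh, p_Sh hUV hp, h1, map_zero]
  rfl

end

theorem one_sub_mem {U V p : L2ZZ →L[ℂ] L2ZZ} (hp : p ∈ vonNeumannGenerated {U, V}) :
    1 - p ∈ vonNeumannGenerated {U, V} := by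
  rw [vonNeumannGenerated, Set.mem_centralizer_iff] at *
  intro m hm
  rw [mul_sub, sub_mul, hp m hm, mul_one, one_mul]

theorem norm_dz {ι : Type*} [DecidableEq ι] (i : ι) : ‖(dz i : lp (fun _ : ι => ℂ) 2)‖ = 1 := by
  rw [dz, lp.norm_single (by norm_num)]
  simp

theorem norm_sq_add {p : L2ZZ →L[ℂ] L2ZZ} (hpr : IsStarProjection p) (v : L2ZZ) :
    ‖p v‖ ^ 2 + ‖(1 - p) v‖ ^ 2 = ‖v‖ ^ 2 := by
  have hsa : ContinuousLinearMap.adjoint p = p := by
    rw [← ContinuousLinearMap.star_eq_adjoint]; exact hpr.isSelfAdjoint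
  have hpp : p (p v) = p v := p_p hpr v
  have h0 : ⟪p v, (1 - p) v⟫_ℂ = 0 := by
    rw [show p v = ContinuousLinearMap.adjoint p v by rw [hsa], ContinuousLinearMap.adjoint_inner_left]
    simp [hpp]
  have h1 : v = p v + (1 - p) v := by simp
  have h2 := norm_add_sq_eq_norm_sq_add_norm_sq_of_inner_eq_zero (p v) ((1 - p) v) h0
  rw [← h1] at h2
  nlinarith [h2]


end Crest.Agent.R113.Fib
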